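import Vale.Agent.P354XK.KF
import Vale.Agent.P354RK.Main
import Vale.Agent.P354J.Pull

/-!
The Kerr data on t = 0 solve the constraint equations.
-/

open scoped ContDiff
open Set Filter Topology

namespace Vale.Agent.P354XK

open Vale.Agent.P354n (R4 IsConn)
open Vale.Agent.P354I (X Dat pd ee dT dP rnd Sg)
open Vale.Agent.P354XS
open Vale.Agent.P354R (kbl kdom Del Sig)

variable {M a : ℝ} {y : X}

/-- The slice in Boyer-Lindquist coordinates, its unit normal, and the domain. -/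
noncomputable def Jm (M a : ℝ) (y : X) : R4 := (0, rad M a y, zc y, Real.arctan (y 1 / y 0))
noncomputable def n0 (M a : ℝ) (y : X) : ℝ :=
  √(AA M a (rad M a y) (zc y) / Sg a (rad M a y) y) / sd M a y
noncomputable def nm (M a : ℝ) (y : X) : R4 :=
  (n0 M a y, 0, 0, n0 M a y * P354XS.om M a (rad M a y) (zc y))
def Om (M a : ℝ) : Set X := {y | y 0 ≠ 0} ∩ (Metric.sphere 0 (√(M ^ 2 - a ^ 2) / 2))ᶜ

theorem co_cont : Continuous fun y : X => y 0 := by fun_prop

theorem Om_open : IsOpen (Om M a) :=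
  (isOpen_ne.preimage co_cont).inter Metric.isClosed_sphere.isOpen_compl

theorem Om_dense : Dense (Om M a) := by
  refine Dense.inter_of_isOpen_left ?_ (interior_eq_empty_iff_dense_compl.1 (interior_sphere' _ _))
    (isOpen_ne.preimage co_cont)
  exact (dense_compl_singleton (0 : ℝ)).preimage
    ((EuclideanSpace.proj (0 : Fin 3) : X →L[ℝ] ℝ).isOpenMap fun t => ⟨t • ee 0, by simp [ee]⟩)

theorem Om.ne (hy : y ∈ Om M a) : y ≠ 0 := fun e => hy.1 (by simp [e])

theorem Om.sd (hy : y ∈ Om M a) : sd M a y ≠ 0 := fun e => hy.2 (by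
  have y0 := norm_pos_iff.2 (Om.ne hy)
  rw [P354XS.sd, sub_eq_zero, eq_div_iff (by positivity)] at e
  rw [mem_sphere_zero_iff_norm, ← e, show ‖y‖ * (4 * ‖y‖) = (2 * ‖y‖) ^ 2 by ring,
    Real.sqrt_sq (by positivity)]
  ring)

theorem Om.sin (hy : y ∈ Om M a) : 0 < 1 - zc y ^ 2 := by
  have y0 := norm_pos_iff.2 (Om.ne hy)
  have : y 0 ≠ 0 := hy.1
  rw [sin_eq (Om.ne hy)]
  positivity

theorem c_J (hy : y ∈ Om M a) : ContDiffAt ℝ ∞ (Jm M a) y :=
  contDiffAt_const.prodMk ((c_r contDiffAt_const contDiffAt_const contDiffAt_id (Om.ne hy)).prodMk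
    ((c_z contDiffAt_id (Om.ne hy)).prodMk (Real.contDiff_arctan.contDiffAt.comp y
      ((c_co contDiffAt_id 1).div (c_co contDiffAt_id 0) hy.1))))

theorem fd_co (i : Fin 3) (y : X) : HasFDerivAt (fun y : X => y i)
    (EuclideanSpace.proj i : X →L[ℝ] ℝ) y := (EuclideanSpace.proj i : X →L[ℝ] ℝ).hasFDerivAt

theorem fd_n (hy : y ≠ 0) : HasFDerivAt (fun y : X => ‖y‖) (‖y‖⁻¹ • innerSL ℝ y) y := by
  have y0 := norm_pos_iff.2 hy
  have := (hasStrictFDerivAt_norm_sq y).hasFDerivAt.sqrt (by positivity)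
  simp only [Real.sqrt_sq (norm_nonneg _)] at this
  refine this.congr_fderiv ?_
  ext v
  simp
  field_simp

theorem pd_J (hy : y ∈ Om M a) (i : Fin 3) : pd i (Jm M a) y =
    (0, sd M a y * dT y (ee i), dZ y (ee i), dP y (ee i) / (1 - zc y ^ 2)) := by
  have h := Om.ne hy
  have y0 := norm_ne_zero_iff.2 h
  have h0 : y 0 ≠ 0 := hy.1
  have n := fd_n h
  have e1 := (n.add_const M).add (((hasDerivAt_inv (mul_ne_zero four_ne_zero y0)).comp_hasFDerivAt
    y (n.const_mul 4)).const_mul (M ^ 2 - a ^ 2))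
  have e2 := (fd_co 2 y).mul ((hasDerivAt_inv y0).comp_hasFDerivAt y n)
  have e3 := ((fd_co 1 y).mul ((hasDerivAt_inv h0).comp_hasFDerivAt y (fd_co 0 y))).arctan
  have := ((hasFDerivAt_const (0 : ℝ) y).prodMk (e1.prodMk (e2.prodMk e3))).fderiv
  rw [pd, show fderiv ℝ (Jm M a) y = _ from this, sin_eq h]
  have h1 : y 0 ^ 2 + y 1 ^ 2 ≠ 0 := by positivity
  simp [P354XS.sd, dT, dZ, zc, dP]
  refine ⟨?_, ?_, ?_⟩ <;> field_simp <;> ring

section
variable (h0 : 0 ≤ M) (h : a ^ 2 ≤ M ^ 2) (hy : y ∈ Om M a)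
include h0 h hy

theorem J_mem : Jm M a y ∈ kdom M a :=
  ⟨by rw [Del]; exact (del_eq (Om.ne hy)).trans_ne (pow_ne_zero 2 (Om.sd hy)),
    (Sg_eq _).symm.trans_ne (Sg_pos (rad_pos h0 h (Om.ne hy))).ne', (Om.sin hy).ne'⟩

theorem c_nm : ContDiffAt ℝ ∞ (nm M a) y := by
  have k := Om.ne hy
  have e : ContDiffAt ℝ ∞ (n0 M a) y :=
    (c_sq contDiffAt_const contDiffAt_const contDiffAt_id k h0 h).div
      (c_s contDiffAt_const contDiffAt_const contDiffAt_id k) (Om.sd hy)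
  exact e.prodMk (contDiffAt_const.prodMk (contDiffAt_const.prodMk (e.mul
    ((contDiffAt_const.mul (c_r contDiffAt_const contDiffAt_const contDiffAt_id k)).div
      (c_A contDiffAt_const contDiffAt_const contDiffAt_id k)
      (AA_pos h0 (rad_pos h0 h k) k).ne'))))
end

/-- The product of a vector tangent to t = const with a combination of d/dt and d/dphi. -/
theorem kbl_n {x : R4} (hS : Sig a x.2.1 x.2.2.1 ≠ 0) (hA : AA M a x.2.1 x.2.2.1 ≠ 0)
    (B : ℝ × ℝ × ℝ) (c o : ℝ) : kbl M a x (0, B) (c, 0, 0, c * o) =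
      B.2.2 * c * ((1 - x.2.2.1 ^ 2) * AA M a x.2.1 x.2.2.1 / Sig a x.2.1 x.2.2.1) *
        (o - P354XS.om M a x.2.1 x.2.2.1) := by
  simp only [kbl, P354XS.om, mul_zero, add_zero]
  field_simp
  simp only [AA, Del]
  ring

theorem kbl_der {x : R4} (hS : Sig a x.2.1 x.2.2.1 ≠ 0) (hA : AA M a x.2.1 x.2.2.1 ≠ 0)
    (A B : ℝ × ℝ × ℝ) (c : ℝ) :
    P354n.deriv (fun z => kbl M a z (0, B) (c, 0, 0, c * P354XS.om M a x.2.1 x.2.2.1)) x (0, A) =
      -(B.2.2 * c * ((1 - x.2.2.1 ^ 2) * AA M a x.2.1 x.2.2.1 / Sig a x.2.1 x.2.2.1) *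
        (deriv (fun r => P354XS.om M a r x.2.2.1) x.2.1 * A.1 +
          deriv (P354XS.om M a x.2.1) x.2.2.1 * A.2.1)) := by
  have dS : DifferentiableAt ℝ (fun t : ℝ => Sig a (x.2.1 + t * A.1) (x.2.2.1 + t * A.2.1)) 0 := by
    unfold Sig; fun_prop
  have dA : DifferentiableAt ℝ
      (fun t : ℝ => AA M a (x.2.1 + t * A.1) (x.2.2.1 + t * A.2.1)) 0 := by
    unfold AA; fun_prop
  have d1 : DifferentiableAt ℝ (fun t : ℝ => 1 - (x.2.2.1 + t * A.2.1) ^ 2) 0 := by fun_prop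
  have d2 := (((d1.mul dA).div dS (by simpa using hS)).const_mul (B.2.2 * c)).hasDerivAt.mul
    ((om_der hA A.1 A.2.1).const_sub (P354XS.om M a x.2.1 x.2.2.1))
  have d3 := (d2.congr_of_eventuallyEq (f₁ := fun t : ℝ => kbl M a (x + t • ((0 : ℝ), A)) (0, B)
      (c, 0, 0, c * P354XS.om M a x.2.1 x.2.2.1)) (by
    filter_upwards [dS.continuousAt.eventually_ne (show _ ≠ 0 by simpa using hS),
      dA.continuousAt.eventually_ne (show _ ≠ 0 by simpa using hA)] with t h1 h2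
    exact kbl_n (x := x + t • ((0 : ℝ), A)) h1 h2 B c _)).deriv
  rw [P354n.deriv, lineDeriv, d3, om_r hA, om_z hA]
  simp only [zero_mul, add_zero, sub_self, mul_zero, zero_add, Pi.div_apply, Pi.mul_apply]
  ring

theorem con_Om (h0 : 0 ≤ M) (h : a ^ 2 ≤ M ^ 2) (hp : P354J.PDy (ds M a)) : ∀ y ∈ Om M a,
    (ds M a).scal y + (ds M a).trK y ^ 2 - (ds M a).sqK y = 0 ∧
      ∀ j, (ds M a).divK j y - pd j (ds M a).trK y = 0 := by
  obtain ⟨m, G, v⟩ := P354RK.k1 M a
  refine gc (kbl M a) G (kdom M a) (Om M a) (Jm M a) (nm M a) (ds M a) P354RK.open_kdom Om_open m v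
    (fun y hy => (c_J hy).contDiffWithinAt) (fun y hy => J_mem h0 h hy) (fun y hy => ?_)
    fun y hy => (c_nm h0 h hy).contDiffWithinAt
  have k := Om.ne hy
  have r0 := rad_pos h0 h k
  have A0 := AA_pos (a := a) h0 r0 k
  have S0 := Sg_pos (a := a) (y := y) r0
  have s0 := Om.sd hy
  have z0 := (Om.sin hy).ne'
  have eS : Sig a (rad M a y) (zc y) = Sg a (rad M a y) y := (Sg_eq _).symm
  have hS : Sig a (Jm M a y).2.1 (Jm M a y).2.2.1 ≠ 0 := eS.trans_ne S0.ne'
  have hA : AA M a (Jm M a y).2.1 (Jm M a y).2.2.1 ≠ 0 := A0.ne'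
  have eD : Del M a (rad M a y) = sd M a y ^ 2 := del_eq k
  have kn : ∀ B : ℝ × ℝ × ℝ, kbl M a (Jm M a y) (0, B) (nm M a y) = 0 := fun B =>
    (kbl_n hS hA B _ _).trans (by rw [Jm, sub_self, mul_zero])
  refine ⟨(hp.2 y k).1, ?_, fun i l => ⟨by rw [pd_J hy]; exact kn _, ?_, ?_⟩⟩
  · have e : n0 M a y ^ 2 = AA M a (rad M a y) (zc y) / Sg a (rad M a y) y / sd M a y ^ 2 := by
      rw [n0, div_pow, Real.sq_sqrt (by positivity)]
    have e1 : kbl M a (Jm M a y) (nm M a y) (nm M a y) = -(n0 M a y ^ 2 *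
        (Del M a (rad M a y) * Sig a (rad M a y) (zc y) / AA M a (rad M a y) (zc y))) := by
      have hS' : Sig a (rad M a y) (zc y) ≠ 0 := hS
      simp only [kbl, Jm, nm, P354XS.om, mul_zero, add_zero]
      field_simp
      simp only [AA, Del, Sig]
      ring
    rw [e1, e, eD, eS]
    field_simp
  · have y0 := norm_ne_zero_iff.2 k
    have e : rnd y (ee i) (ee l) = (dZ y (ee i) * dZ y (ee l) + dP y (ee i) * dP y (ee l)) /
        (1 - zc y ^ 2) := by
      rw [eq_div_iff z0]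
      simp only [rnd, dZ, dT, dP, zc, inn]
      generalize ee i = v
      generalize ee l = w
      field_simp
      have := nsq y
      generalize ‖y‖ = R at this ⊢
      linear_combination (v 0 * w 0 + v 1 * w 1) * R ^ 2 * this
    simp only [pd_J hy, ds, Matrix.of_apply, hs, kbl, Jm, eD, eS, e]
    have : rad M a y ^ 2 + a ^ 2 = sd M a y ^ 2 + 2 * M * rad M a y := by rw [← del_eq k]; ring
    field_simp
    rw [Sg_eq, ← del_eq k]
    ring
  · have c := (v _ (J_mem h0 h hy)).1 (pd i (Jm M a) y) (pd l (Jm M a) y) (nm M a y)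
    have t : (pd i (pd l (Jm M a)) y).1 = 0 := by
      have := pd_ap (c := fun _ => ContinuousLinearMap.fst ℝ ℝ (ℝ × ℝ × ℝ)) contDiffAt_const
        (x_pd (c_J hy) l) i
      rw [pd_const, zero_apply, zero_add, pd_congr (g := fun _ => 0) (by
        filter_upwards [Om_open.mem_nhds hy] with z hz
        rw [pd_J hz]; rfl), pd_const] at this
      exact this.symm
    have t2 : kbl M a (Jm M a y) (nm M a y) (pd i (pd l (Jm M a)) y) = 0 := by
      rw [m.symm _ (J_mem h0 h hy), show pd i (pd l (Jm M a)) y = (0, (pd i (pd l (Jm M a)) y).2)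
        from Prod.ext t rfl, kn]
    have t3 : ∀ A B, P354n.deriv (fun z => kbl M a z A B) (Jm M a y) (nm M a y) = 0 := fun A B => by
      simp [P354n.deriv, lineDeriv, kbl, nm]
    rw [t3, pd_J hy, pd_J hy] at c
    have d1 := kbl_der hS hA (sd M a y * dT y (ee i), dZ y (ee i), dP y (ee i) / (1 - zc y ^ 2))
      (sd M a y * dT y (ee l), dZ y (ee l), dP y (ee l) / (1 - zc y ^ 2)) (n0 M a y)
    have d2 := kbl_der hS hA (sd M a y * dT y (ee l), dZ y (ee l), dP y (ee l) / (1 - zc y ^ 2))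
      (sd M a y * dT y (ee i), dZ y (ee i), dP y (ee i) / (1 - zc y ^ 2)) (n0 M a y)
    erw [d1, d2] at c
    rw [(m.lin _ (J_mem h0 h hy) _).map_add, t2, zero_add, m.symm _ (J_mem h0 h hy), pd_J hy,
      pd_J hy]
    simp only [ds, Matrix.of_apply, hs_rot k S0.ne', et]
    simp only [Jm, eS, n0] at c ⊢
    rw [neg_eq_iff_eq_neg, ← mul_right_inj' two_ne_zero, c]
    field_simp
    ring

/-- **KD.** -/
theorem kd : KD := by
  intro M a h
  have D := pdy h
  obtain ⟨h0, h⟩ := sq_of h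
  have cl : ∀ {f : X → ℝ}, ContDiffOn ℝ ∞ f {0}ᶜ → (∀ y ∈ Om M a, f y = 0) → ∀ y ≠ 0, f y = 0 :=
    fun hf k y hy => by
      simpa using (hf.continuousOn.continuousAt (isOpen_compl_singleton.mem_nhds
        hy)).continuousWithinAt.mem_closure (Om_dense y) (t := {0}) k
  have hi := D.hi
  have ch := D.chr
  have K := fun i j => (D.1 i j).2
  have tr : ContDiffOn ℝ ∞ (ds M a).trK {0}ᶜ :=
    ContDiffOn.sum fun i _ => ContDiffOn.sum fun j _ => (hi i j).mul (K i j)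
  refine ⟨D, fun y hy => ⟨cl (f := fun y => (ds M a).scal y + (ds M a).trK y ^ 2 - (ds M a).sqK y)
    ?_ (fun y hy => (con_Om h0 h D y hy).1) y hy, fun j => cl
      (f := fun y => (ds M a).divK j y - pd j (ds M a).trK y) ?_
      (fun y hy => (con_Om h0 h D y hy).2 j) y hy⟩⟩
  · exact ((ContDiffOn.sum fun i _ => ContDiffOn.sum fun j _ => (hi i j).mul
      (ContDiffOn.sum fun k _ => ((P354J.y_pd (ch k i j) k).sub (P354J.y_pd (ch k k i) j)).add
        (ContDiffOn.sum fun l _ => ((ch _ _ _).mul (ch _ _ _)).sub ((ch _ _ _).mul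
          (ch _ _ _))))).add (tr.pow 2)).sub (ContDiffOn.sum fun i _ => ContDiffOn.sum fun j _ =>
      ContDiffOn.sum fun k _ => ContDiffOn.sum fun l _ =>
        (((hi _ _).mul (hi _ _)).mul (K _ _)).mul (K _ _))
  · exact (ContDiffOn.sum fun i _ => ContDiffOn.sum fun k _ => (hi i k).mul
      ((P354J.y_pd (K k j) i).sub (ContDiffOn.sum fun l _ =>
        ((ch _ _ _).mul (K _ _)).add ((ch _ _ _).mul (K _ _))))).sub (P354J.y_pd tr j)

end Vale.Agent.P354XK
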