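import Vale.Agent.P354XS.Iface
import Vale.Agent.P354RC.Pull

/-!
The equations of Gauss and Codazzi: data induced by a vacuum metric solve the constraints.
-/

set_option maxSynthPendingDepth 3

open scoped ContDiff
open Set Filter Topology

namespace Vale.Agent.P354XK

open Vale.Agent.P354n (R4 IsConn Riem)
open Vale.Agent.P354I (X Dat pd ee)
open Vale.Agent.P354RC

section
variable {F F' : Type} [NormedAddCommGroup F] [NormedSpace ℝ F] [NormedAddCommGroup F']
  [NormedSpace ℝ F'] {y : X}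

theorem xd {f : X → F} (hf : ContDiffAt ℝ ∞ f y) : DifferentiableAt ℝ f y :=
  hf.differentiableAt (by simp)

theorem x_pd {f : X → F} (hf : ContDiffAt ℝ ∞ f y) (i : Fin 3) : ContDiffAt ℝ ∞ (pd i f) y :=
  (hf.fderiv_right (m := ∞) (by simp)).clm_apply contDiffAt_const

theorem pd_ap {c : X → F →L[ℝ] F'} {u : X → F} (hc : ContDiffAt ℝ ∞ c y)
    (hu : ContDiffAt ℝ ∞ u y) (i : Fin 3) :
    pd i (fun z => c z (u z)) y = pd i c y (u y) + c y (pd i u y) := by
  unfold pd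
  rw [fderiv_clm_apply (xd hc) (xd hu)]
  simp [add_comm]

theorem pd_cp {c : R4 → F} {J : X → R4} (hc : ContDiffAt ℝ ∞ c (J y)) (hJ : ContDiffAt ℝ ∞ J y)
    (i : Fin 3) : pd i (fun z => c (J z)) y = fderiv ℝ c (J y) (pd i J y) := by
  unfold pd
  rw [fderiv_fun_comp y (at_df hc) (xd hJ)]; rfl

theorem pd_sym {f : X → F} (hf : ContDiffAt ℝ ∞ f y) (i j : Fin 3) :
    pd i (pd j f) y = pd j (pd i f) y := by
  have k := hf.fderiv_right (m := ∞) (by simp)
  have e : ∀ i j, pd i (pd j f) y = fderiv ℝ (fderiv ℝ f) y (ee i) (ee j) := fun i j => by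
    have := pd_ap k (contDiffAt_const (c := ee j)) i
    rw [show pd i (fun _ => ee j) y = 0 by simp [pd], map_zero, add_zero] at this
    exact this
  rw [e, e]
  exact hf.isSymmSndFDerivAt
    (by rw [minSmoothness_of_isRCLikeNormedField]; exact ENat.LEInfty.out) _ _

theorem pd_congr {f g : X → F} (e : f =ᶠ[𝓝 y] g) (i : Fin 3) : pd i f y = pd i g y := by
  unfold pd; rw [e.fderiv_eq]

theorem pd_add {f g : X → F} (hf : ContDiffAt ℝ ∞ f y) (hg : ContDiffAt ℝ ∞ g y) (i : Fin 3) :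
    pd i (fun z => f z + g z) y = pd i f y + pd i g y := by
  unfold pd; rw [fderiv_fun_add (xd hf) (xd hg)]; rfl

theorem pd_sub {f g : X → F} (hf : ContDiffAt ℝ ∞ f y) (hg : ContDiffAt ℝ ∞ g y) (i : Fin 3) :
    pd i (fun z => f z - g z) y = pd i f y - pd i g y := by
  unfold pd; rw [fderiv_fun_sub (xd hf) (xd hg)]; rfl

theorem pd_neg {f : X → F} (i : Fin 3) : pd i (fun z => -f z) y = -pd i f y := by
  unfold pd; rw [fderiv_fun_neg]; rfl

theorem pd_const (c : F) (i : Fin 3) : pd i (fun _ => c) y = 0 := by simp [pd]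

theorem pd_mul {f g : X → ℝ} (hf : ContDiffAt ℝ ∞ f y) (hg : ContDiffAt ℝ ∞ g y) (i : Fin 3) :
    pd i (fun z => f z * g z) y = pd i f y * g y + f y * pd i g y := by
  unfold pd; rw [fderiv_fun_mul (xd hf) (xd hg)]; simp [add_comm, mul_comm]

theorem pd_half {f : X → ℝ} (hf : ContDiffAt ℝ ∞ f y) (i : Fin 3) :
    pd i (fun z => f z / 2) y = pd i f y / 2 := by
  simp only [div_eq_mul_inv]
  rw [pd_mul hf contDiffAt_const, pd_const]; ring

theorem pd_sum {ι : Type} [Fintype ι] {f : ι → X → F} (hf : ∀ k, ContDiffAt ℝ ∞ (f k) y)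
    (i : Fin 3) : pd i (fun z => ∑ k, f k z) y = ∑ k, pd i (f k) y := by
  unfold pd; rw [fderiv_fun_sum fun k _ => xd (hf k)]; simp

end

variable {g : R4 → R4 → R4 → ℝ} {h : R4 → B2} {D : Set R4} {J : X → R4} {y : X}

theorem d2sym (r : Rp g h D) {p : R4} (hp : p ∈ D) (a b c d : R4) :
    fderiv ℝ (fderiv ℝ h) p a b c d = fderiv ℝ (fderiv ℝ h) p a b d c := by
  have k := at_fd (r.at hp)
  have e3 : ∀ c d, fderiv ℝ (fun z => fderiv ℝ h z b c d) p a =
      fderiv ℝ (fderiv ℝ h) p a b c d := fun c d => by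
    rw [fd_ap0 ((k.clm_apply contDiffAt_const).clm_apply contDiffAt_const),
      fd_ap0 (k.clm_apply contDiffAt_const), fd_ap0 k]
  rw [← e3, ← e3]
  have : (fun z => fderiv ℝ h z b c d) =ᶠ[𝓝 p] fun z => fderiv ℝ h z b d c := by
    filter_upwards [r.op.mem_nhds hp] with z hz using r.dsym hz b c d
  rw [this.fderiv_eq]

theorem Rm_a (r : Rp g h D) {p : R4} (hp : p ∈ D) (a b c d : R4) :
    Rm h p a b c d = -Rm h p a b d c := by
  simp only [Rm, dC]
  rw [d2sym r hp a b d c, d2sym r hp b a d c, d2sym r hp a d b c, d2sym r hp a c b d,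
    d2sym r hp b d a c, d2sym r hp b c a d, sym2 (r.at hp) b a,
    r.symm p hp (Gm h p b d), r.symm p hp (Gm h p a d)]
  ring

theorem Rm_b (p a b c d : R4) : Rm h p a b c d = -Rm h p b a c d := by
  simp only [Rm]; ring

/-- The covariant derivative along J and its product with a second field. -/
noncomputable def Dv (h : R4 → B2) (J : X → R4) (i : Fin 3) (A : X → R4) (y : X) : R4 :=
  pd i A y + Gm h (J y) (pd i J y) (A y)
noncomputable def om (h : R4 → B2) (J : X → R4) (i : Fin 3) (A B : X → R4) (y : X) : ℝ :=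
  h (J y) (Dv h J i A y) (B y)

theorem om_eq (r : Rp g h D) (hy : J y ∈ D) (i : Fin 3) (A B : X → R4) :
    om h J i A B y = h (J y) (pd i A y) (B y) + C1 h (J y) (pd i J y) (A y) (B y) := by
  rw [om, Dv, map_add, add_apply, r.gm hy]

theorem om_met (r : Rp g h D) (hy : J y ∈ D) (hJ : ContDiffAt ℝ ∞ J y) {A B : X → R4}
    (hA : ContDiffAt ℝ ∞ A y) (hB : ContDiffAt ℝ ∞ B y) (i : Fin 3) :
    pd i (fun z => h (J z) (A z) (B z)) y = om h J i A B y + om h J i B A y := by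
  have k0 : ContDiffAt ℝ ∞ (fun z => h (J z)) y := (r.at hy).comp y hJ
  rw [pd_ap (k0.clm_apply hA) hB, pd_ap k0 hA, pd_cp (r.at hy) hJ, om_eq r hy, om_eq r hy,
    C1_ap, C1_ap, r.symm _ hy (A y) (pd i B y), r.dsym hy (pd i J y) (B y),
    r.dsym hy (A y) (pd i J y), r.dsym hy (B y) (pd i J y)]
  simp only [add_apply]
  ring

theorem om_pd (r : Rp g h D) (hy : J y ∈ D) (hJ : ContDiffAt ℝ ∞ J y) {A B : X → R4}
    (hA : ContDiffAt ℝ ∞ A y) (hB : ContDiffAt ℝ ∞ B y) (i j : Fin 3) :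
    pd i (om h J j A B) y =
      fderiv ℝ h (J y) (pd i J y) (pd j A y) (B y) + h (J y) (pd i (pd j A) y) (B y) +
      h (J y) (pd j A y) (pd i B y) + dC h (J y) (pd i J y) (pd j J y) (A y) (B y) +
      C1 h (J y) (pd i (pd j J) y) (A y) (B y) + C1 h (J y) (pd j J y) (pd i A y) (B y) +
      C1 h (J y) (pd j J y) (A y) (pd i B y) := by
  have hh := r.at hy
  have k0 : ContDiffAt ℝ ∞ (fun z => h (J z)) y := hh.comp y hJ
  have k1 : ContDiffAt ℝ ∞ (fun z => fderiv ℝ h (J z)) y := (at_fd hh).comp y hJ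
  have t : ∀ {u v w : X → R4}, ContDiffAt ℝ ∞ u y → ContDiffAt ℝ ∞ v y → ContDiffAt ℝ ∞ w y →
      ContDiffAt ℝ ∞ (fun z => fderiv ℝ h (J z) (u z) (v z) (w z)) y :=
    fun a b c => ((k1.clm_apply a).clm_apply b).clm_apply c
  have e : ∀ {u v w : X → R4}, ContDiffAt ℝ ∞ u y → ContDiffAt ℝ ∞ v y → ContDiffAt ℝ ∞ w y →
      pd i (fun z => fderiv ℝ h (J z) (u z) (v z) (w z)) y =
        fderiv ℝ (fderiv ℝ h) (J y) (pd i J y) (u y) (v y) (w y) +
        fderiv ℝ h (J y) (pd i u y) (v y) (w y) + fderiv ℝ h (J y) (u y) (pd i v y) (w y) +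
        fderiv ℝ h (J y) (u y) (v y) (pd i w y) := fun a b c => by
    rw [pd_ap ((k1.clm_apply a).clm_apply b) c, pd_ap (k1.clm_apply a) b, pd_ap k1 a,
      pd_cp (at_fd hh) hJ]
    simp only [add_apply]
  have kj := x_pd hJ j
  have ev : om h J j A B =ᶠ[𝓝 y] fun z => h (J z) (pd j A z) (B z) +
      (fderiv ℝ h (J z) (pd j J z) (A z) (B z) + fderiv ℝ h (J z) (A z) (pd j J z) (B z) -
        fderiv ℝ h (J z) (B z) (pd j J z) (A z)) / 2 := by
    filter_upwards [hJ.continuousAt.preimage_mem_nhds (r.op.mem_nhds hy)] with z hz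
    rw [om_eq r hz, C1_ap]
  rw [pd_congr ev, pd_add ((k0.clm_apply (x_pd hA j)).clm_apply hB)
      ((((t kj hA hB).add (t hA kj hB)).sub (t hB kj hA)).div_const 2),
    pd_half (((t kj hA hB).add (t hA kj hB)).sub (t hB kj hA)),
    pd_sub ((t kj hA hB).add (t hA kj hB)) (t hB kj hA), pd_add (t kj hA hB) (t hA kj hB),
    e kj hA hB, e hA kj hB, e hB kj hA, pd_ap (k0.clm_apply (x_pd hA j)) hB, pd_ap k0 (x_pd hA j),
    pd_cp hh hJ]
  simp only [add_apply, dC, C1_ap]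
  ring

theorem om_curv (r : Rp g h D) (hy : J y ∈ D) (hJ : ContDiffAt ℝ ∞ J y) {A B : X → R4}
    (hA : ContDiffAt ℝ ∞ A y) (hB : ContDiffAt ℝ ∞ B y) (i j : Fin 3) :
    Rm h (J y) (pd i J y) (pd j J y) (A y) (B y) =
      pd i (om h J j A B) y - pd j (om h J i A B) y -
        h (J y) (Dv h J j A y) (Dv h J i B y) + h (J y) (Dv h J i A y) (Dv h J j B y) := by
  rw [om_pd r hy hJ hA hB, om_pd r hy hJ hA hB, pd_sym hA j i, pd_sym hJ j i]
  simp only [Rm, Dv, map_add, add_apply]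
  rw [r.symm _ hy (pd j A y) (Gm ..), r.symm _ hy (pd i A y) (Gm ..), r.gm hy _ _ (pd j A y),
    r.gm hy _ _ (pd i A y), r.gm hy _ _ (pd j B y), r.gm hy _ _ (pd i B y)]
  simp only [C1_ap]
  have d := r.dsym hy
  linarith [d (pd i J y) (B y) (pd j A y), d (pd j J y) (B y) (pd i A y)]

variable {O : Set X} {n : X → R4} {d : Dat}

/-- The hypotheses on the slice. -/
structure Sl (g : R4 → R4 → R4 → ℝ) (h : R4 → B2) (D : Set R4) (O : Set X) (J n : X → R4)
    (d : Dat) : Prop where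
  r : Rp g h D
  op : IsOpen O
  sJ : ContDiffOn ℝ ∞ J O
  sn : ContDiffOn ℝ ∞ n O
  maps : MapsTo J O D
  pos : ∀ y ∈ O, (d.h y).PosDef
  nn : ∀ y ∈ O, h (J y) (n y) (n y) = -1
  nJ : ∀ y ∈ O, ∀ i, h (J y) (pd i J y) (n y) = 0
  JJ : ∀ y ∈ O, ∀ i k, h (J y) (pd i J y) (pd k J y) = d.h y i k
  KK : ∀ y ∈ O, ∀ i k, om h J i (pd k J) n y = -d.K y i k

/-- Christoffel symbols of the first kind. -/
noncomputable def G1 (d : Dat) (i j l : Fin 3) (y : X) : ℝ :=
  (pd i (fun z => d.h z j l) y + pd j (fun z => d.h z i l) y - pd l (fun z => d.h z i j) y) / 2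

namespace Sl
variable (S : Sl g h D O J n d) (hy : y ∈ O)
include S hy

theorem aJ : ContDiffAt ℝ ∞ J y := S.sJ.contDiffAt (S.op.mem_nhds hy)
theorem an : ContDiffAt ℝ ∞ n y := S.sn.contDiffAt (S.op.mem_nhds hy)

theorem ev {P : X → Prop} (k : ∀ z ∈ O, P z) : ∀ᶠ z in 𝓝 y, P z := by
  filter_upwards [S.op.mem_nhds hy] with z hz using k z hz

theorem ah (i k : Fin 3) : ContDiffAt ℝ ∞ (fun z => d.h z i k) y :=
  ((((S.r.at (S.maps hy)).comp y (S.aJ hy)).clm_apply (x_pd (S.aJ hy) i)).clm_apply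
    (x_pd (S.aJ hy) k)).congr_of_eventuallyEq (S.ev hy fun z hz => (S.JJ z hz i k).symm)

theorem om_sym (i k : Fin 3) (B : X → R4) : om h J i (pd k J) B y = om h J k (pd i J) B y := by
  rw [om_eq S.r (S.maps hy), om_eq S.r (S.maps hy), pd_sym (S.aJ hy) i k, C1_ap, C1_ap,
    S.r.dsym (S.maps hy) (B y)]
  ring

theorem dh (i k l : Fin 3) : pd i (fun z => d.h z k l) y =
    om h J i (pd k J) (pd l J) y + om h J i (pd l J) (pd k J) y := by
  rw [← om_met S.r (S.maps hy) (S.aJ hy) (x_pd (S.aJ hy) k) (x_pd (S.aJ hy) l)]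
  exact pd_congr (S.ev hy fun z hz => (S.JJ z hz k l).symm) i

theorem om_JJ (i k l : Fin 3) : om h J i (pd k J) (pd l J) y = G1 d i k l y := by
  rw [G1, S.dh hy, S.dh hy, S.dh hy, S.om_sym hy k i, S.om_sym hy l i, S.om_sym hy l k]
  ring

theorem om_nJ (i k : Fin 3) : om h J i n (pd k J) y = d.K y i k := by
  have := om_met S.r (S.maps hy) (S.aJ hy) (x_pd (S.aJ hy) k) (S.an hy) i
  rw [pd_congr (g := fun _ => 0) (S.ev hy fun z hz => S.nJ z hz k), pd_const, S.KK y hy] at this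
  linarith

theorem om_nn (i : Fin 3) : om h J i n n y = 0 := by
  have := om_met S.r (S.maps hy) (S.aJ hy) (S.an hy) (S.an hy) i
  rw [pd_congr (g := fun _ => -1) (S.ev hy fun z hz => S.nn z hz), pd_const] at this
  linarith

theorem hsym (i k : Fin 3) : d.h y i k = d.h y k i := by
  rw [← S.JJ y hy, ← S.JJ y hy, S.r.symm _ (S.maps hy)]

theorem inv : (d.h y)⁻¹ * d.h y = 1 :=
  Matrix.nonsing_inv_mul _ (S.pos y hy).det_pos.ne'.isUnit

theorem up (w : Fin 3 → ℝ) (j : Fin 3) : ∑ l, (d.h y)⁻¹ j l * ∑ k, d.h y l k * w k = w j := by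
  have := congrFun (congrArg (fun A => A.mulVec w) (S.inv hy)) j
  rw [← Matrix.mulVec_mulVec, Matrix.one_mulVec] at this
  exact this

theorem low (w : Fin 3 → ℝ) (j : Fin 3) : ∑ l, d.h y j l * ∑ k, (d.h y)⁻¹ l k * w k = w j := by
  have := congrFun (congrArg (fun A => A.mulVec w) (mul_eq_one_comm.1 (S.inv hy))) j
  rw [← Matrix.mulVec_mulVec, Matrix.one_mulVec] at this
  exact this

theorem isym (i k : Fin 3) : (d.h y)⁻¹ i k = (d.h y)⁻¹ k i := by
  have e : (d.h y).transpose = d.h y := Matrix.ext fun i k => S.hsym hy k i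
  have := congrFun (congrFun (Matrix.transpose_nonsing_inv (d.h y)) k) i
  rw [e] at this
  exact this

theorem dual : Dual (h (J y)) (Fin.cons (n y) fun i => pd i J y)
    (Fin.cons (-n y) fun i => ∑ l, (d.h y)⁻¹ i l • pd l J y) := by
  intro a b
  refine Fin.cases ?_ (fun i => ?_) a <;> refine Fin.cases ?_ (fun k => ?_) b
  · simp [S.nn y hy]
  · simp [map_sum, S.r.symm _ (S.maps hy) (n y), S.nJ y hy, (Fin.succ_ne_zero k).symm]
  · simp [S.nJ y hy]
  · have := congrFun (congrFun (S.inv hy) k) i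
    simp only [Fin.cons_succ, map_sum, map_smul, smul_eq_mul, S.JJ y hy, Fin.succ_inj,
      S.hsym hy i]
    rw [Matrix.mul_apply, Matrix.one_apply] at this
    rw [this]
    simp only [eq_comm]

theorem expand (u v : R4) : h (J y) u v = -(h (J y) u (n y) * h (J y) v (n y)) +
    ∑ a, (∑ b, (d.h y)⁻¹ a b * h (J y) u (pd b J y)) * h (J y) v (pd a J y) := by
  conv_lhs => rw [(S.dual hy).exp u]
  simp only [Fin.sum_univ_succ (n := 3), Fin.cons_zero, Fin.cons_succ, map_add, map_sum, map_smul,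
    map_neg, add_apply, ContinuousLinearMap.sum_apply, smul_apply, smul_eq_mul,
    S.r.symm _ (S.maps hy) _ v]
  ring

theorem ric (b c : R4) : Ric h (J y) b c = -Rm h (J y) (n y) b c (n y) +
    ∑ i, ∑ l, (d.h y)⁻¹ i l * Rm h (J y) (pd i J y) b c (pd l J y) := by
  rw [← S.r.ric (S.maps hy) (S.dual hy), Fin.sum_univ_succ]
  have e : ∀ a e, Rm h (J y) a b c e = RmL h (J y) b c a e := fun _ _ => rfl
  simp only [Fin.cons_zero, Fin.cons_succ, e, map_neg, map_sum, map_smul, smul_eq_mul]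

theorem chr_eq (k i j : Fin 3) : d.chr k i j y = ∑ l, (d.h y)⁻¹ k l * G1 d i j l y := by
  simp only [Dat.chr, G1, mul_div_assoc]

theorem G1_eq (i j l : Fin 3) : G1 d i j l y = ∑ k, d.h y l k * d.chr k i j y := by
  simp only [S.chr_eq hy, S.low hy]

theorem aG (i j l : Fin 3) : ContDiffAt ℝ ∞ (G1 d i j l) y :=
  (((x_pd (S.ah hy _ _) _).add (x_pd (S.ah hy _ _) _)).sub (x_pd (S.ah hy _ _) _)).div_const 2

theorem ai (i k : Fin 3) : ContDiffAt ℝ ∞ (fun z => (d.h z)⁻¹ i k) y := by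
  have a := S.ah hy
  have e : (fun z => (d.h z)⁻¹ i k) = fun z => ((d.h z).det)⁻¹ * (d.h z).adjugate i k :=
    funext fun z => by rw [Matrix.inv_def, Matrix.smul_apply, Ring.inverse_eq_inv', smul_eq_mul]
  have hd : ContDiffAt ℝ ∞ (fun z => (d.h z).det) y := by
    simp only [Matrix.det_fin_three]
    exact (((((((a _ _).mul (a _ _)).mul (a _ _)).sub (((a _ _).mul (a _ _)).mul (a _ _))).sub
      (((a _ _).mul (a _ _)).mul (a _ _))).add (((a _ _).mul (a _ _)).mul (a _ _))).add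
      (((a _ _).mul (a _ _)).mul (a _ _))).sub (((a _ _).mul (a _ _)).mul (a _ _))
  rw [e]
  refine (hd.inv (S.pos y hy).det_pos.ne').mul ?_
  simp only [Matrix.adjugate_fin_three]
  fin_cases i <;> fin_cases k <;>
    first
    | exact ((a _ _).mul (a _ _)).sub ((a _ _).mul (a _ _))
    | exact ((a _ _).mul (a _ _)).neg.add ((a _ _).mul (a _ _))

theorem ac (k i j : Fin 3) : ContDiffAt ℝ ∞ (d.chr k i j) y :=
  (ContDiffAt.sum fun l _ => (S.ai hy k l).mul (S.aG hy i j l)).congr_of_eventuallyEq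
    (S.ev hy fun _ hz => S.chr_eq hz k i j)

theorem chr_sym (k i j : Fin 3) : d.chr k i j y = d.chr k j i y := by
  simp only [S.chr_eq hy, ← S.om_JJ hy, S.om_sym hy i j]

theorem Ksym (i j : Fin 3) : d.K y i j = d.K y j i := by
  have := S.om_sym hy i j n
  rw [S.KK y hy, S.KK y hy] at this
  linarith

theorem dG (m i j l : Fin 3) : pd m (G1 d i j l) y =
    ∑ k, (G1 d m l k y + G1 d m k l y) * d.chr k i j y + ∑ k, d.h y l k * pd m (d.chr k i j) y := by
  rw [pd_congr (S.ev hy fun _ hz => S.G1_eq hz i j l),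
    pd_sum fun k => (S.ah hy l k).mul (S.ac hy k i j), ← Finset.sum_add_distrib]
  refine Finset.sum_congr rfl fun k _ => ?_
  rw [pd_mul (S.ah hy l k) (S.ac hy k i j), S.dh hy, S.om_JJ hy, S.om_JJ hy]

theorem gauss (i j k l : Fin 3) : Rm h (J y) (pd i J y) (pd j J y) (pd k J y) (pd l J y) =
    ∑ m, d.h y l m * (pd i (d.chr m j k) y - pd j (d.chr m i k) y +
      ∑ a, (d.chr m i a y * d.chr a j k y - d.chr m j a y * d.chr a i k y)) +
      d.K y j k * d.K y i l - d.K y i k * d.K y j l := by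
  have e1 : ∀ i k, h (J y) (Dv h J i (pd k J) y) (n y) = -d.K y i k := S.KK y hy
  have e2 : ∀ i k l, h (J y) (Dv h J i (pd k J) y) (pd l J y) = G1 d i k l y := S.om_JJ hy
  rw [om_curv S.r (S.maps hy) (S.aJ hy) (x_pd (S.aJ hy) k) (x_pd (S.aJ hy) l),
    pd_congr (S.ev hy fun _ hz => S.om_JJ hz j k l), pd_congr (S.ev hy fun _ hz => S.om_JJ hz i k l),
    S.expand hy (Dv h J j (pd k J) y) (Dv h J i (pd l J) y),
    S.expand hy (Dv h J i (pd k J) y) (Dv h J j (pd l J) y), S.dG hy, S.dG hy]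
  simp only [e1, e2, ← S.chr_eq hy]
  simp only [S.G1_eq hy _ _ l, Fin.sum_univ_three]
  ring

theorem codazzi (i j l : Fin 3) : Rm h (J y) (pd i J y) (pd j J y) (n y) (pd l J y) =
    pd i (fun z => d.K z j l) y - pd j (fun z => d.K z i l) y -
      ∑ a, d.chr a i l y * d.K y j a + ∑ a, d.chr a j l y * d.K y i a := by
  have e0 : ∀ i, h (J y) (Dv h J i n y) (n y) = 0 := S.om_nn hy
  have e1 : ∀ i k, h (J y) (Dv h J i n y) (pd k J y) = d.K y i k := S.om_nJ hy
  have e2 : ∀ i k l, h (J y) (Dv h J i (pd k J) y) (pd l J y) = G1 d i k l y := S.om_JJ hy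
  rw [om_curv S.r (S.maps hy) (S.aJ hy) (S.an hy) (x_pd (S.aJ hy) l),
    pd_congr (S.ev hy fun _ hz => S.om_nJ hz j l), pd_congr (S.ev hy fun _ hz => S.om_nJ hz i l),
    S.r.symm _ (S.maps hy) (Dv h J j n y), S.r.symm _ (S.maps hy) (Dv h J i n y),
    S.expand hy (Dv h J i (pd l J) y) (Dv h J j n y),
    S.expand hy (Dv h J j (pd l J) y) (Dv h J i n y)]
  simp only [e0, e1, e2, ← S.chr_eq hy]
  ring

theorem aK (i k : Fin 3) : ContDiffAt ℝ ∞ (fun z => d.K z i k) y := by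
  have hh := S.r.at (S.maps hy)
  have hJ := S.aJ hy
  have k1 : ContDiffAt ℝ ∞ (fun z => fderiv ℝ h (J z)) y := (at_fd hh).comp y hJ
  have t : ∀ {u v w : X → R4}, ContDiffAt ℝ ∞ u y → ContDiffAt ℝ ∞ v y → ContDiffAt ℝ ∞ w y →
      ContDiffAt ℝ ∞ (fun z => fderiv ℝ h (J z) (u z) (v z) (w z)) y :=
    fun a b c => ((k1.clm_apply a).clm_apply b).clm_apply c
  have a := x_pd hJ i
  have b := x_pd hJ k
  have c := S.an hy
  refine ((((hh.comp y hJ).clm_apply (x_pd c i)).clm_apply b).add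
    ((((t a c b).add (t c a b)).sub (t b a c)).div_const 2)).congr_of_eventuallyEq
    (S.ev hy fun z hz => ?_)
  exact (S.om_nJ hz i k).symm.trans (by rw [om_eq S.r (S.maps hz), C1_ap]; rfl)

theorem di (m i k : Fin 3) : pd m (fun z => (d.h z)⁻¹ i k) y =
    -∑ a, (d.chr i m a y * (d.h y)⁻¹ a k + d.chr k m a y * (d.h y)⁻¹ a i) := by
  have e : ∀ l, ∑ a, d.h y l a * pd m (fun z => (d.h z)⁻¹ a k) y =
      -∑ a, (G1 d m l a y + G1 d m a l y) * (d.h y)⁻¹ a k := fun l => by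
    have := pd_sum (fun a => (S.ah hy l a).mul (S.ai hy a k)) m
    rw [pd_congr (g := fun _ => (1 : Matrix (Fin 3) (Fin 3) ℝ) l k) (S.ev hy fun z hz => by
      rw [← mul_eq_one_comm.1 (S.inv hz), Matrix.mul_apply]), pd_const] at this
    simp only [pd_mul (S.ah hy _ _) (S.ai hy _ _), S.dh hy, S.om_JJ hy,
      Finset.sum_add_distrib] at this ⊢
    simp only [add_mul, Finset.sum_add_distrib] at this ⊢
    linarith
  rw [← S.up hy (fun a => pd m (fun z => (d.h z)⁻¹ a k) y) i]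
  simp only [e, S.chr_eq hy, Fin.sum_univ_three, S.isym hy _ k, S.isym hy _ i]
  ring

theorem constr (v : ∀ b c, Ric h (J y) b c = 0) :
    d.scal y + d.trK y ^ 2 - d.sqK y = 0 ∧ ∀ j, d.divK j y - pd j d.trK y = 0 := by
  have m := S.maps hy
  have z : ∀ a b c, Rm h (J y) a b c c = 0 := fun a b c => by
    have := Rm_a S.r m a b c c
    linarith
  constructor
  · have e1 : ∀ j k, ∑ i, ∑ l, (d.h y)⁻¹ i l * Rm h (J y) (pd i J y) (pd j J y) (pd k J y)
        (pd l J y) = Rm h (J y) (pd j J y) (n y) (n y) (pd k J y) := fun j k => by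
      have := S.ric hy (pd j J y) (pd k J y)
      rw [v, Rm_a S.r m (n y), Rm_b _ (n y)] at this
      linarith
    have e2 := S.ric hy (n y) (n y)
    rw [v, z, neg_zero, zero_add] at e2
    have e3 : ∀ i (w A B : Fin 3 → ℝ), ∑ l, (d.h y)⁻¹ i l * (∑ m, d.h y l m * w m + A l - B l) =
        w i + ∑ l, (d.h y)⁻¹ i l * A l - ∑ l, (d.h y)⁻¹ i l * B l := fun i w A B => by
      rw [← S.up hy w i, ← Finset.sum_add_distrib, ← Finset.sum_sub_distrib]
      exact Finset.sum_congr rfl fun _ _ => by ring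
    simp only [← e1, S.gauss hy, e3] at e2
    simp only [Dat.scal, Dat.trK, Dat.sqK, Dat.ric, Fin.sum_univ_three] at e2 ⊢
    simp only [S.isym hy 1 0, S.isym hy 2 0, S.isym hy 2 1, S.Ksym hy 1 0, S.Ksym hy 2 0,
      S.Ksym hy 2 1, S.chr_sym hy _ 1 0, S.chr_sym hy _ 2 0, S.chr_sym hy _ 2 1] at e2 ⊢
    linear_combination -e2
  · intro j
    have e2 := S.ric hy (pd j J y) (n y)
    rw [v, z, neg_zero, zero_add] at e2
    have e3 : pd j d.trK y = ∑ i, ∑ l, (pd j (fun z => (d.h z)⁻¹ i l) y * d.K y i l +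
        (d.h y)⁻¹ i l * pd j (fun z => d.K z i l) y) := by
      unfold Dat.trK
      rw [pd_sum fun i => ContDiffAt.sum fun l _ => (S.ai hy i l).mul (S.aK hy i l)]
      refine Finset.sum_congr rfl fun i _ => ?_
      rw [pd_sum fun l => (S.ai hy i l).mul (S.aK hy i l)]
      exact Finset.sum_congr rfl fun l _ => pd_mul (S.ai hy i l) (S.aK hy i l) j
    have e4 : ∀ i l, pd i (fun z => d.K z l j) y = pd i (fun z => d.K z j l) y := fun i l =>
      pd_congr (S.ev hy fun _ hz => S.Ksym hz l j) i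
    simp only [S.codazzi hy] at e2
    rw [e3, Dat.divK]
    simp only [S.di hy, e4, S.chr_sym hy _ _ j, S.Ksym hy _ j]
    simp only [Fin.sum_univ_three] at e2 ⊢
    simp only [S.isym hy 1 0, S.isym hy 2 0, S.isym hy 2 1, S.Ksym hy 1 0, S.Ksym hy 2 0,
      S.Ksym hy 2 1] at e2 ⊢
    linear_combination -e2

end Sl

/-- **GC.** -/
theorem gc : P354XS.GC := by
  intro g G D O J n d hD hO m v sJ mp H sn y hy
  obtain ⟨h, r⟩ := rp_of_met hD m
  have S : Sl g h D O J n d := by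
    refine ⟨r, hO, sJ, sn, mp, fun y hy => (H y hy).1, fun y hy => ?_, fun y hy i => ?_,
      fun y hy i k => ?_, fun y hy i k => ?_⟩
    · rw [← r.eq _ (mp hy)]; exact (H y hy).2.1
    · rw [← r.eq _ (mp hy)]; exact ((H y hy).2.2 i i).1
    · rw [← r.eq _ (mp hy)]; exact ((H y hy).2.2 i k).2.1
    · rw [← ((H y hy).2.2 i k).2.2, neg_neg, om, Dv, r.symm _ (mp hy), r.eq _ (mp hy),
        (r.conn (mp hy)).1 (v _ (mp hy)).1]
  exact S.constr hy (r.vac.1 ⟨G, v⟩ _ (mp hy))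

end Vale.Agent.P354XK
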