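import Vale.Agent.P354XK.GC

/-!
Closed formulas for the Kerr data on t = 0, smoothness, positivity and asymptotic flatness.
-/

open scoped ContDiff
open Set Filter Topology

namespace Vale.Agent.P354XK

open Vale.Agent.P354I (X Dat pd ee dT dP rnd Sg)
open Vale.Agent.P354XS Vale.Agent.P354T

/-- Scaling lemma. -/
theorem scal_bd {Φ : ℝ × X → ℝ} {f : X → ℝ} (k m : ℕ)
    (hΦ : ∀ q ∈ Icc (0 : ℝ) 1 ×ˢ Metric.sphere (0 : X) 1, ContDiffAt ℝ ∞ Φ q)
    (hf : ∀ s > 0, ∀ y ≠ 0, f y = s ^ k * Φ (s, s • y)) :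
    ∃ C, ∀ y : X, 1 ≤ ‖y‖ → ‖y‖ ^ (k + m) * ‖iteratedFDeriv ℝ m f y‖ ≤ C := by
  obtain ⟨C, hC⟩ := (isCompact_Icc.prod (isCompact_sphere (0 : X) 1)).exists_bound_of_continuousOn
    (f := iteratedFDeriv ℝ m Φ) fun q hq =>
      ((hΦ q hq).continuousAt_iteratedFDeriv (by exact_mod_cast le_top)).continuousWithinAt
  refine ⟨C, fun y hy => ?_⟩
  have y0 : 0 < ‖y‖ := by linarith
  set s := ‖y‖⁻¹ with hs
  have s0 : 0 < s := inv_pos.2 y0
  have hq : (s, s • y) ∈ Icc (0 : ℝ) 1 ×ˢ Metric.sphere (0 : X) 1 :=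
    ⟨⟨s0.le, inv_le_one_of_one_le₀ hy⟩, by
      simp [norm_smul, hs, y0.ne']⟩
  let L : X →L[ℝ] ℝ × X := s • ContinuousLinearMap.inr ℝ ℝ X
  have hL : ‖L‖ ≤ s := L.opNorm_le_bound s0.le fun v => by
    simp [L, norm_smul, abs_of_pos s0, mul_nonneg s0.le (norm_nonneg v)]
  have e : ∀ z, ((s, 0) : ℝ × X) + L z = (s, s • z) := fun z => by simp [L]
  have c1 : ContDiffAt ℝ m (fun p => Φ ((s, 0) + p)) (L y) :=
    ContDiffAt.comp (g := Φ) (L y) (by rw [e]; exact (hΦ _ hq).of_le (by exact_mod_cast le_top))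
      (contDiffAt_const.add contDiffAt_id)
  obtain ⟨u, hu, c2⟩ := c1.contDiffOn le_rfl (by simp)
  obtain ⟨U, hU, o, hm⟩ := mem_nhds_iff.1 hu
  have o2 := o.preimage L.continuous
  have c3 := L.iteratedFDerivWithin_comp_right (c2.mono hU) o.uniqueDiffOn o2.uniqueDiffOn hm le_rfl
  rw [iteratedFDerivWithin_of_isOpen m o2 hm, iteratedFDerivWithin_of_isOpen m o hm,
    iteratedFDeriv_comp_add_left, e] at c3
  have ev : f =ᶠ[𝓝 y] fun z => s ^ k • ((fun p => Φ ((s, 0) + p)) ∘ L) z := by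
    filter_upwards [eventually_ne_nhds (norm_pos_iff.1 y0)] with z hz
    rw [hf s s0 z hz, Function.comp, e, smul_eq_mul]
  rw [(ev.iteratedFDeriv ℝ m).eq_of_nhds, iteratedFDeriv_const_smul_apply'
    (c1.comp y L.contDiff.contDiffAt), c3, norm_smul, Real.norm_of_nonneg (by positivity)]
  have b := (ContinuousMultilinearMap.norm_compContinuousLinearMap_le
    (iteratedFDeriv ℝ m Φ (s, s • y)) fun _ => L).trans
    (mul_le_mul (hC _ hq) (Finset.prod_le_prod (g := fun _ => s) (fun _ _ => norm_nonneg _)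
      fun _ _ => hL) (by positivity) ((norm_nonneg _).trans (hC _ hq)))
  rw [Finset.prod_const, Finset.card_univ, Fintype.card_fin] at b
  calc _ ≤ ‖y‖ ^ (k + m) * (s ^ k * (C * s ^ m)) := by gcongr
    _ = C * (‖y‖ * s) ^ (k + m) := by ring
    _ = C := by rw [hs, mul_inv_cancel₀ y0.ne', one_pow, mul_one]

variable {M a : ℝ} {y : X}

/-- The derivative of AA in r, and the derivatives of om. -/
noncomputable def AR (M a r z : ℝ) : ℝ := 4 * r * (r ^ 2 + a ^ 2) - a ^ 2 * (2 * r - 2 * M) * (1 - z ^ 2)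

theorem om_der {r z : ℝ} (h : AA M a r z ≠ 0) (u w : ℝ) :
    HasDerivAt (fun t => P354XS.om M a (r + t * u) (z + t * w))
      (M * a * (2 * (AA M a r z - r * AR M a r z) / AA M a r z ^ 2 * u -
        4 * a ^ 2 * r * z * (r ^ 2 - 2 * M * r + a ^ 2) / AA M a r z ^ 2 * w)) 0 := by
  have h1 : HasDerivAt (fun t : ℝ => r + t * u) u 0 := by
    simpa using ((hasDerivAt_id' (0 : ℝ)).mul_const u).const_add r
  have h2 : HasDerivAt (fun t : ℝ => z + t * w) w 0 := by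
    simpa using ((hasDerivAt_id' (0 : ℝ)).mul_const w).const_add z
  have h3 := (((h1.fun_pow 2).add_const (a ^ 2)).fun_pow 2).fun_sub
    ((((((h1.fun_pow 2).fun_sub (h1.const_mul (2 * M))).add_const (a ^ 2)).const_mul (a ^ 2))).fun_mul
      ((h2.fun_pow 2).const_sub 1))
  have h4 := (h1.const_mul (2 * M * a)).fun_div h3 (by simpa [AA] using h)
  refine h4.congr_deriv ?_
  have h' := h
  simp only [AA, AR] at h' ⊢
  simp only [zero_mul, add_zero]
  field_simp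
  ring

theorem om_r {r z : ℝ} (h : AA M a r z ≠ 0) : deriv (fun r => P354XS.om M a r z) r =
    M * a * (2 * (AA M a r z - r * AR M a r z) / AA M a r z ^ 2) := by
  have := (om_der h 1 0).deriv
  simp only [mul_one, mul_zero, add_zero, sub_zero] at this
  rw [← this, deriv_comp_const_add (fun r => P354XS.om M a r z), add_zero]

theorem om_z {r z : ℝ} (h : AA M a r z ≠ 0) : deriv (P354XS.om M a r) z =
    -(M * a * (4 * a ^ 2 * r * z * (r ^ 2 - 2 * M * r + a ^ 2) / AA M a r z ^ 2)) := by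
  have := (om_der h 0 1).deriv
  simp only [mul_one, mul_zero, add_zero, zero_sub, mul_neg] at this
  rw [← this, deriv_comp_const_add (P354XS.om M a r), add_zero]

theorem nsq (y : X) : ‖y‖ ^ 2 = y 0 ^ 2 + y 1 ^ 2 + y 2 ^ 2 := by
  rw [EuclideanSpace.real_norm_sq_eq, Fin.sum_univ_three]

theorem inn (y v : X) : inner ℝ y v = y 0 * v 0 + y 1 * v 1 + y 2 * v 2 := by
  simp [PiLp.inner_apply, Fin.sum_univ_three, mul_comm]

theorem del_eq (hy : y ≠ 0) : rad M a y ^ 2 - 2 * M * rad M a y + a ^ 2 = sd M a y ^ 2 := by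
  have := norm_ne_zero_iff.2 hy
  simp only [rad, sd]; field_simp; ring

theorem Sg_eq (r : ℝ) : Sg a r y = r ^ 2 + a ^ 2 * zc y ^ 2 := by rw [Sg, zc, div_pow]

theorem sin_eq (hy : y ≠ 0) : 1 - zc y ^ 2 = (y 0 ^ 2 + y 1 ^ 2) / ‖y‖ ^ 2 := by
  have := norm_ne_zero_iff.2 hy
  rw [zc]; field_simp; linarith [nsq y]

theorem AA_eq (r z : ℝ) : AA M a r z = (r ^ 2 + a ^ 2) * (r ^ 2 + a ^ 2 * z ^ 2) +
    2 * M * r * a ^ 2 * (1 - z ^ 2) := by rw [AA]; ring

theorem rad_pos (h0 : 0 ≤ M) (h : a ^ 2 ≤ M ^ 2) (hy : y ≠ 0) : 0 < rad M a y := by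
  have := norm_pos_iff.2 hy
  have := sub_nonneg.2 h
  rw [rad]; positivity

theorem Sg_pos {r : ℝ} (h : 0 < r) : 0 < Sg a r y := by rw [Sg]; positivity

theorem AA_pos (h0 : 0 ≤ M) {r : ℝ} (h : 0 < r) (hy : y ≠ 0) : 0 < AA M a r (zc y) := by
  rw [AA_eq, sin_eq hy]; positivity

/-- The form et divided by M a, and the factor of dP in h(rot, .). -/
noncomputable def ec (M a : ℝ) (y v : X) : ℝ :=
  √(AA M a (rad M a y) (zc y) / Sg a (rad M a y) y) *
    (2 * (AA M a (rad M a y) (zc y) - rad M a y * AR M a (rad M a y) (zc y)) /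
        AA M a (rad M a y) (zc y) ^ 2 * dT y v -
      4 * a ^ 2 * rad M a y * zc y * sd M a y / AA M a (rad M a y) (zc y) ^ 2 * dZ y v)
noncomputable def Kc (M a : ℝ) (y v w : X) : ℝ :=
  AA M a (rad M a y) (zc y) / Sg a (rad M a y) y * (ec M a y v * dP y w + ec M a y w * dP y v) / 2

theorem et_eq (hy : y ≠ 0) (h : AA M a (rad M a y) (zc y) ≠ 0) (v : X) :
    et M a y v = M * a * ec M a y v := by
  rw [et, ec, om_r h, om_z h, del_eq hy]
  rcases eq_or_ne (sd M a y) 0 with e | e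
  · simp only [e]; ring
  · field_simp; ring

theorem hs_rot (hy : y ≠ 0) (h : Sg a (rad M a y) y ≠ 0) (v : X) :
    hs M a y (rot y) v = AA M a (rad M a y) (zc y) / Sg a (rad M a y) y * dP y v := by
  have e1 : dT y (rot y) = 0 := by simp [dT, inn, rot]; left; ring
  have e2 : rnd y (rot y) v = dP y v := by rw [rnd, e1]; simp [inn, rot, dP]; ring
  have e3 : dP y (rot y) = 1 - zc y ^ 2 := by rw [sin_eq hy]; simp [dP, rot]; ring
  rw [hs, e1, e2, e3, AA_eq, ← Sg_eq]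
  have : rad M a y ^ 2 + a ^ 2 = Sg a (rad M a y) y + a ^ 2 * (1 - zc y ^ 2) := by rw [Sg_eq]; ring
  rw [this]; field_simp; ring

theorem K_eq (h0 : 0 ≤ M) (h : a ^ 2 ≤ M ^ 2) (hy : y ≠ 0) (i j : Fin 3) :
    (ds M a).K y i j = M * a * Kc M a y (ee i) (ee j) := by
  have r0 := rad_pos h0 h hy
  simp only [ds, Matrix.of_apply, et_eq hy (AA_pos h0 r0 hy).ne', hs_rot hy (Sg_pos r0).ne', Kc]
  ring

theorem hs_eq (v w : X) : hs M a y v w = Sg a (rad M a y) y * (inner ℝ v w / ‖y‖ ^ 2) +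
    a ^ 2 * (1 + 2 * M * rad M a y / Sg a (rad M a y) y) * (dP y v * dP y w) := by
  rw [hs, rnd]; ring

/-- The difference to the flat metric divided by s. -/
noncomputable def Hc (M a s : ℝ) (y v w : X) : ℝ :=
  (2 * ‖y‖ * (M + s * (M ^ 2 - a ^ 2) / (4 * ‖y‖)) + s * (M + s * (M ^ 2 - a ^ 2) / (4 * ‖y‖)) ^ 2 +
      s * a ^ 2 * zc y ^ 2) * (inner ℝ v w / ‖y‖ ^ 2) +
    s * a ^ 2 * (1 + 2 * (s * M) * rad (s * M) (s * a) y / Sg (s * a) (rad (s * M) (s * a) y) y) *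
      (dP y v * dP y w)

section
variable {Q : Type} [NormedAddCommGroup Q] [NormedSpace ℝ Q] {q : Q} {Mf af : Q → ℝ} {yf : Q → X}
  (hM : ContDiffAt ℝ ∞ Mf q) (ha : ContDiffAt ℝ ∞ af q) (hf : ContDiffAt ℝ ∞ yf q) (hy : yf q ≠ 0)
include hf

theorem c_co (i : Fin 3) : ContDiffAt ℝ ∞ (fun q => yf q i) q := contDiffAt_euclidean.1 hf i

include hy
theorem c_n : ContDiffAt ℝ ∞ (fun q => ‖yf q‖) q := hf.norm ℝ hy
theorem c_z : ContDiffAt ℝ ∞ (fun q => zc (yf q)) q :=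
  (c_co hf 2).div (c_n hf hy) (norm_ne_zero_iff.2 hy)
theorem c_T (v : X) : ContDiffAt ℝ ∞ (fun q => dT (yf q) v) q :=
  (hf.inner ℝ contDiffAt_const).div ((c_n hf hy).pow 2) (pow_ne_zero 2 (norm_ne_zero_iff.2 hy))
theorem c_P (v : X) : ContDiffAt ℝ ∞ (fun q => dP (yf q) v) q :=
  (((c_co hf 0).mul contDiffAt_const).sub ((c_co hf 1).mul contDiffAt_const)).div
    ((c_n hf hy).pow 2) (pow_ne_zero 2 (norm_ne_zero_iff.2 hy))
theorem c_Z (v : X) : ContDiffAt ℝ ∞ (fun q => dZ (yf q) v) q :=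
  (contDiffAt_const.div (c_n hf hy) (norm_ne_zero_iff.2 hy)).sub ((c_z hf hy).mul (c_T hf hy v))

include hM ha
theorem c_q : ContDiffAt ℝ ∞ (fun q => (Mf q ^ 2 - af q ^ 2) / (4 * ‖yf q‖)) q :=
  ((hM.pow 2).sub (ha.pow 2)).div (contDiffAt_const.mul (c_n hf hy))
    (mul_ne_zero four_ne_zero (norm_ne_zero_iff.2 hy))
theorem c_r : ContDiffAt ℝ ∞ (fun q => rad (Mf q) (af q) (yf q)) q :=
  ((c_n hf hy).add hM).add (c_q hM ha hf hy)
theorem c_s : ContDiffAt ℝ ∞ (fun q => sd (Mf q) (af q) (yf q)) q :=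
  (c_n hf hy).sub (c_q hM ha hf hy)
theorem c_S : ContDiffAt ℝ ∞ (fun q => Sg (af q) (rad (Mf q) (af q) (yf q)) (yf q)) q := by
  simp only [Sg_eq]
  exact ((c_r hM ha hf hy).pow 2).add ((ha.pow 2).mul ((c_z hf hy).pow 2))
theorem c_A : ContDiffAt ℝ ∞
    (fun q => AA (Mf q) (af q) (rad (Mf q) (af q) (yf q)) (zc (yf q))) q := by
  have r := c_r hM ha hf hy
  have z := c_z hf hy
  unfold AA; fun_prop
theorem c_AR : ContDiffAt ℝ ∞
    (fun q => AR (Mf q) (af q) (rad (Mf q) (af q) (yf q)) (zc (yf q))) q := by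
  have r := c_r hM ha hf hy
  have z := c_z hf hy
  unfold AR; fun_prop

variable (h0 : 0 ≤ Mf q) (h : af q ^ 2 ≤ Mf q ^ 2)
include h0 h
theorem c_sq : ContDiffAt ℝ ∞ (fun q => √(AA (Mf q) (af q) (rad (Mf q) (af q) (yf q)) (zc (yf q)) /
    Sg (af q) (rad (Mf q) (af q) (yf q)) (yf q))) q :=
  ((c_A hM ha hf hy).div (c_S hM ha hf hy) (Sg_pos (rad_pos h0 h hy)).ne').sqrt
    (div_pos (AA_pos h0 (rad_pos h0 h hy) hy) (Sg_pos (rad_pos h0 h hy))).ne'
theorem c_e (v : X) : ContDiffAt ℝ ∞ (fun q => ec (Mf q) (af q) (yf q) v) q := by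
  have A0 := pow_ne_zero 2 (AA_pos (a := af q) h0 (rad_pos h0 h hy) hy).ne'
  have A := c_A hM ha hf hy
  have r := c_r hM ha hf hy
  exact (c_sq hM ha hf hy h0 h).mul ((((contDiffAt_const.mul (A.sub (r.mul (c_AR hM ha hf hy)))).div
    (A.pow 2) A0).mul (c_T hf hy v)).sub ((((((contDiffAt_const.mul (ha.pow 2)).mul r).mul
      (c_z hf hy)).mul (c_s hM ha hf hy)).div (A.pow 2) A0).mul (c_Z hf hy v)))
theorem c_K (v w : X) : ContDiffAt ℝ ∞ (fun q => Kc (Mf q) (af q) (yf q) v w) q :=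
  (((c_A hM ha hf hy).div (c_S hM ha hf hy) (Sg_pos (rad_pos h0 h hy)).ne').mul
    (((c_e hM ha hf hy h0 h v).mul (c_P hf hy w)).add
      ((c_e hM ha hf hy h0 h w).mul (c_P hf hy v)))).div_const 2
theorem c_m : ContDiffAt ℝ ∞ (fun q => 1 + 2 * Mf q * rad (Mf q) (af q) (yf q) /
    Sg (af q) (rad (Mf q) (af q) (yf q)) (yf q)) q :=
  contDiffAt_const.add (((contDiffAt_const.mul hM).mul (c_r hM ha hf hy)).div (c_S hM ha hf hy)
    (Sg_pos (rad_pos h0 h hy)).ne')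
theorem c_h (v w : X) : ContDiffAt ℝ ∞ (fun q => hs (Mf q) (af q) (yf q) v w) q := by
  simp only [hs_eq]
  exact ((c_S hM ha hf hy).mul (contDiffAt_const.div ((c_n hf hy).pow 2)
    (pow_ne_zero 2 (norm_ne_zero_iff.2 hy)))).add (((ha.pow 2).mul (c_m hM ha hf hy h0 h)).mul
      ((c_P hf hy v).mul (c_P hf hy w)))
end

theorem sq_of (h : |a| < M) : 0 ≤ M ∧ a ^ 2 ≤ M ^ 2 :=
  ⟨(abs_nonneg a).trans h.le, by rw [← sq_abs a]; gcongr⟩

theorem pdy (h : |a| < M) : P354J.PDy (ds M a) := by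
  obtain ⟨h0, h⟩ := sq_of h
  refine ⟨fun i j => ⟨fun y hy => ?_, fun y hy => ?_⟩, fun y hy => ⟨?_, ?_⟩⟩
  · exact (c_h contDiffAt_const contDiffAt_const contDiffAt_id hy h0 h _ _).contDiffWithinAt
  · exact (contDiffAt_const.mul (c_K contDiffAt_const contDiffAt_const contDiffAt_id hy h0 h
      _ _)).contDiffWithinAt.congr (fun z hz => K_eq h0 h hz i j) (K_eq h0 h hy i j)
  · refine posDef_of (Matrix.ext fun i j => ?_) fun v hv => ?_
    · simp only [ds, Matrix.transpose_apply, Matrix.of_apply, hs_eq, real_inner_comm (ee i),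
        mul_comm (dP y (ee i))]
    · have r0 := rad_pos h0 h hy
      have S0 := Sg_pos (a := a) (y := y) r0
      have y0 := norm_pos_iff.2 hy
      have e : qf ((ds M a).h y) v = Sg a (rad M a y) y * ((v 0 ^ 2 + v 1 ^ 2 + v 2 ^ 2) / ‖y‖ ^ 2) +
          a ^ 2 * (1 + 2 * M * rad M a y / Sg a (rad M a y) y) *
            ((y 0 * v 1 - y 1 * v 0) / ‖y‖ ^ 2) ^ 2 := by
        simp [qf, ds, hs_eq, Fin.sum_univ_three, inn, ee, dP]; ring
      have : 0 < v 0 ^ 2 + v 1 ^ 2 + v 2 ^ 2 := by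
        by_contra k
        refine hv (funext fun i => ?_)
        fin_cases i <;> simp <;> nlinarith [sq_nonneg (v 0), sq_nonneg (v 1), sq_nonneg (v 2)]
      rw [e]; positivity
  · exact Matrix.ext fun i j => by simp only [ds, Matrix.transpose_apply, Matrix.of_apply, add_comm]

variable {s : ℝ}

theorem rad_smul (hs : 0 < s) (hy : y ≠ 0) : rad (s * M) (s * a) (s • y) = s * rad M a y := by
  have := norm_ne_zero_iff.2 hy
  simp only [rad, norm_smul, Real.norm_of_nonneg hs.le]; field_simp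
theorem sd_smul (hs : 0 < s) (hy : y ≠ 0) : sd (s * M) (s * a) (s • y) = s * sd M a y := by
  have := norm_ne_zero_iff.2 hy
  simp only [sd, norm_smul, Real.norm_of_nonneg hs.le]; field_simp
theorem zc_smul (hs : 0 < s) : zc (s • y) = zc y := by
  simp only [zc, norm_smul, Real.norm_of_nonneg hs.le, PiLp.smul_apply, smul_eq_mul,
    mul_div_mul_left _ _ hs.ne']
theorem dZ_smul (hs : 0 < s) (v : X) : dZ (s • y) v = s⁻¹ * dZ y v := by
  simp only [dZ, zc_smul hs, dT_smul hs.ne', norm_smul, Real.norm_of_nonneg hs.le]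
  field_simp

theorem Kc_smul (hs : 0 < s) (hy : y ≠ 0) (v w : X) :
    Kc M a y v w = s ^ 3 * Kc (s * M) (s * a) (s • y) v w := by
  have e1 : ∀ r z, AA (s * M) (s * a) (s * r) z = s ^ 4 * AA M a r z := fun r z => by
    simp only [AA]; ring
  have e2 : ∀ r z, AR (s * M) (s * a) (s * r) z = s ^ 3 * AR M a r z := fun r z => by
    simp only [AR]; ring
  have e3 : ∀ r, Sg (s * a) (s * r) (s • y) = s ^ 2 * Sg a r y := fun r => by
    simp only [Sg_eq, zc_smul hs]; ring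
  have e4 : ∀ A S : ℝ, s ^ 4 * A / (s ^ 2 * S) = s ^ 2 * (A / S) := fun A S => by field_simp
  simp only [Kc, ec, rad_smul hs hy, sd_smul hs hy, zc_smul hs, dZ_smul hs, dT_smul hs.ne',
    dP_smul hs.ne', e1, e2, e3, e4, Real.sqrt_mul (sq_nonneg s), Real.sqrt_sq hs.le]
  field_simp

theorem Hc_smul (hs : 0 < s) (hy : y ≠ 0) (v w : X) :
    P354XS.hs M a y v w - inner ℝ v w = s ^ 1 * Hc M a s (s • y) v w := by
  have := norm_ne_zero_iff.2 hy
  have e3 : ∀ r, Sg (s * a) (s * r) (s • y) = s ^ 2 * Sg a r y := fun r => by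
    simp only [Sg_eq, zc_smul hs]; ring
  have e4 : ∀ A S : ℝ, 2 * (s * M) * (s * A) / (s ^ 2 * S) = 2 * M * A / S := fun A S => by
    field_simp
  simp only [hs_eq, Hc, rad_smul hs hy, zc_smul hs, dP_smul hs.ne', e3, e4, norm_smul,
    Real.norm_of_nonneg hs.le]
  generalize 1 + 2 * M * rad M a y / Sg a (rad M a y) y = B
  simp only [Sg_eq, rad]
  field_simp
  ring

/-- **KF.** -/
theorem kf : KF := by
  intro M a h m
  obtain ⟨h0, h⟩ := sq_of h
  have k : ∀ q ∈ Icc (0 : ℝ) 1 ×ˢ Metric.sphere (0 : X) 1, q.2 ≠ 0 ∧ 0 ≤ q.1 * M ∧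
      (q.1 * a) ^ 2 ≤ (q.1 * M) ^ 2 := fun q hq =>
    ⟨Metric.ne_of_mem_sphere hq.2 one_ne_zero, mul_nonneg hq.1.1 h0, by
      rw [mul_pow, mul_pow]; gcongr⟩
  have f1 : ∀ {q : ℝ × X} (c : ℝ), ContDiffAt ℝ ∞ (fun q : ℝ × X => q.1 * c) q := fun c =>
    contDiffAt_fst.mul contDiffAt_const
  choose C hC using fun p : Fin 3 × Fin 3 => scal_bd
    (Φ := fun q => Hc M a q.1 q.2 (ee p.1) (ee p.2))
    (f := fun z => (ds M a).h z p.1 p.2 - (1 : P354J.M3) p.1 p.2) 1 m (fun q hq => by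
      obtain ⟨k1, k2, k3⟩ := k q hq
      have n := c_n contDiffAt_snd k1
      have n0 := norm_ne_zero_iff.2 k1
      have e : ContDiffAt ℝ ∞ (fun q : ℝ × X => M + q.1 * (M ^ 2 - a ^ 2) / (4 * ‖q.2‖)) q :=
        contDiffAt_const.add ((f1 _).div (contDiffAt_const.mul n) (mul_ne_zero four_ne_zero n0))
      exact (((((contDiffAt_const.mul n).mul e).add (contDiffAt_fst.mul (e.pow 2))).add
        ((f1 _).mul ((c_z contDiffAt_snd k1).pow 2))).mul
        (contDiffAt_const.div (n.pow 2) (pow_ne_zero 2 n0))).add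
        (((f1 _).mul (c_m (f1 M) (f1 a) contDiffAt_snd k1 k2 k3)).mul
          ((c_P contDiffAt_snd k1 _).mul (c_P contDiffAt_snd k1 _))))
    fun s hs y hy => by
      rw [← Hc_smul hs hy]
      congr 1
      simp [ee, EuclideanSpace.inner_single_left, Matrix.one_apply]
  choose C' hC' using fun p : Fin 3 × Fin 3 => scal_bd
    (Φ := fun q => M * a * Kc (q.1 * M) (q.1 * a) q.2 (ee p.1) (ee p.2))
    (f := fun z => (ds M a).K z p.1 p.2) 3 m (fun q hq => contDiffAt_const.mul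
      (c_K (f1 M) (f1 a) contDiffAt_snd (k q hq).1 (k q hq).2.1 (k q hq).2.2 _ _))
    fun s hs y hy => by rw [K_eq h0 h hy, Kc_smul hs hy]; ring
  refine ⟨∑ p, (|C p| + |C' p|), fun y hy i j => ⟨(hC (i, j) y hy).trans ?_,
    (hC' (i, j) y hy).trans ?_⟩⟩ <;>
  refine le_trans ?_ (Finset.single_le_sum (f := fun p => |C p| + |C' p|)
    (fun p _ => by positivity) (Finset.mem_univ (i, j)))
  · linarith [le_abs_self (C (i, j)), abs_nonneg (C' (i, j))]
  · linarith [le_abs_self (C' (i, j)), abs_nonneg (C (i, j))]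

end Vale.Agent.P354XK
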